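import Vale.Agent.P268.T.H594.Kink

/-!
# P268, topological half, route V: regularity in the direction of `z`

`RegAt.of_zdir`: functions `(|z| - m(|z|)) e^{iV(z)} + m(|z|) W + C` with `V` an angle coordinate,
`m` nondecreasing with slope at most `Q`, `Q (1 - Re (W e^{-iV₀})) < 1`, `m(|z₀|) < |z₀|`.
-/

set_option linter.unusedSectionVars false

namespace Vale.Agent.P268.T

open Set Filter Topology

/-- The function of the `z`-direction lemma. -/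
noncomputable def zFn {P : Type*} (V : ℂ → ℝ) (C W : P → ℂ) (m : P → ℝ → ℝ) (p : P) (z : ℂ) : ℂ :=
  ((‖z‖ - m p ‖z‖ : ℝ) : ℂ) * Complex.exp (Complex.I * (V z : ℂ)) + (m p ‖z‖ : ℂ) * W p + C p

/-- The quadratic form. -/
theorem zdir_alg {n₀ σ D₁ β₀ Q K μ δ x w ω₁ ω₂ : ℝ} (hn₀ : 0 < n₀) (hβ₀ : 0 < β₀) (hD₁ : 0 < D₁)
    (hσ0 : 0 < σ) (hQ : 0 ≤ Q) (hρ : 8 * n₀ * (Q * K) ^ 2 * σ ≤ D₁ * β₀)
    (hμ0 : 0 ≤ μ) (hμ : μ ≤ Q) (hω₂ : |ω₂| ≤ K) (hω₁ : D₁ ≤ 1 - μ * ω₁)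
    (hδ1 : n₀ / 2 * σ * x ^ 2 ≤ x * δ) (hδ2 : |δ| ≤ 2 * n₀ * σ * |x|) :
    D₁ * n₀ * σ / 4 * x ^ 2 + β₀ / 2 * w ^ 2 ≤
      (δ - μ * δ * ω₁) * x + (β₀ * w - μ * δ * ω₂) * w := by
  have h0 : 0 ≤ x * δ := le_trans (by positivity) hδ1
  have h1 : D₁ * (n₀ / 2 * σ * x ^ 2) ≤ (δ - μ * δ * ω₁) * x := by
    have e : (δ - μ * δ * ω₁) * x = (1 - μ * ω₁) * (x * δ) := by ring
    rw [e]
    calc D₁ * (n₀ / 2 * σ * x ^ 2) ≤ D₁ * (x * δ) := mul_le_mul_of_nonneg_left hδ1 hD₁.le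
      _ ≤ (1 - μ * ω₁) * (x * δ) := mul_le_mul_of_nonneg_right hω₁ h0
  have h2 : |μ * δ * ω₂ * w| ≤ (2 * n₀ * σ * (Q * K)) * |x| * |w| := by
    rw [abs_mul, abs_mul, abs_mul, abs_of_nonneg hμ0]
    refine mul_le_mul_of_nonneg_right ?_ (abs_nonneg _)
    calc μ * |δ| * |ω₂| ≤ Q * (2 * n₀ * σ * |x|) * K := by
          refine mul_le_mul (mul_le_mul hμ hδ2 (abs_nonneg _) hQ) hω₂ (abs_nonneg _) (by positivity)
      _ = _ := by ring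
  have h3 : (2 * n₀ * σ * (Q * K)) * |x| * |w| ≤
      β₀ / 2 * w ^ 2 + (2 * n₀ * σ * (Q * K)) ^ 2 * x ^ 2 / (2 * β₀) := by
    have h := sq_nonneg (β₀ * |w| - (2 * n₀ * σ * (Q * K)) * |x|)
    have e1 : |w| ^ 2 = w ^ 2 := sq_abs w
    have e2 : |x| ^ 2 = x ^ 2 := sq_abs x
    have h4 : 2 * β₀ * ((2 * n₀ * σ * (Q * K)) * |x| * |w|) ≤
        β₀ ^ 2 * w ^ 2 + (2 * n₀ * σ * (Q * K)) ^ 2 * x ^ 2 := by
      rw [← e1, ← e2]; linarith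
    have h5 : β₀ / 2 * w ^ 2 + (2 * n₀ * σ * (Q * K)) ^ 2 * x ^ 2 / (2 * β₀) =
        (β₀ ^ 2 * w ^ 2 + (2 * n₀ * σ * (Q * K)) ^ 2 * x ^ 2) / (2 * β₀) := by
      field_simp
    rw [h5, le_div_iff₀ (by positivity)]
    linarith
  have h6 : (2 * n₀ * σ * (Q * K)) ^ 2 * x ^ 2 / (2 * β₀) ≤
      D₁ * n₀ * σ / 4 * x ^ 2 := by
    rw [div_le_iff₀ (by positivity)]
    have e : (2 * n₀ * σ * (Q * K)) ^ 2 * x ^ 2 =
        (8 * n₀ * (Q * K) ^ 2 * σ) * (n₀ * σ / 2 * x ^ 2) := by ring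
    rw [e]
    calc (8 * n₀ * (Q * K) ^ 2 * σ) * (n₀ * σ / 2 * x ^ 2)
        ≤ (D₁ * β₀) * (n₀ * σ / 2 * x ^ 2) :=
          mul_le_mul_of_nonneg_right hρ (by positivity)
      _ = _ := by ring
  have h7 := (abs_le.mp (h2.trans h3)).2
  nlinarith

/-- Increment of the radius. -/
theorem radius_incr {n₀ σ n n' x : ℝ} (hn₀ : 0 < n₀) (hσ : 0 < σ) (h1 : 3 / 4 * n₀ ≤ n)
    (h2 : n ≤ 5 / 4 * n₀) (hu : |σ * x| ≤ 1 / 4) (hn' : n' = Real.exp (σ * x) * n) :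
    n₀ / 2 * σ * x ^ 2 ≤ x * (n' - n) ∧ |n' - n| ≤ 2 * n₀ * σ * |x| := by
  have hn : 0 < n := by linarith
  set u : ℝ := σ * x with hu'
  have h3 := Real.abs_exp_sub_one_sub_id_le (x := u) (by linarith)
  have h4 : u ^ 2 ≤ 1 / 4 * |u| := by
    rw [← sq_abs]; nlinarith [abs_nonneg u]
  set e : ℝ := Real.exp u - 1 - u with he
  have h5 : |e| ≤ 1 / 4 * |u| := h3.trans h4
  have e1 : n' - n = n * (u + e) := by rw [hn', he]; ring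
  have hux : |u| = σ * |x| := by rw [hu', abs_mul, abs_of_pos hσ]
  constructor
  · rw [e1]
    have h6 : -(1 / 4 * |u| * |x|) ≤ x * e := by
      have : |x * e| ≤ 1 / 4 * |u| * |x| := by
        rw [abs_mul, mul_comm]
        exact mul_le_mul_of_nonneg_right h5 (abs_nonneg _)
      exact (abs_le.mp this).1
    have h7 : 3 / 4 * (σ * x ^ 2) ≤ x * (u + e) := by
      have e2 : |u| * |x| = σ * x ^ 2 := by rw [hux, mul_assoc, ← sq, sq_abs]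
      have e3 : x * u = σ * x ^ 2 := by rw [hu']; ring
      nlinarith
    calc n₀ / 2 * σ * x ^ 2 ≤ (3 / 4 * n₀) * (3 / 4 * (σ * x ^ 2)) := by
          have : 0 ≤ n₀ * (σ * x ^ 2) := by positivity
          nlinarith
      _ ≤ n * (x * (u + e)) := mul_le_mul h1 h7 (by positivity) hn.le
      _ = _ := by ring
  · rw [e1, abs_mul, abs_of_pos hn]
    have h8 : |u + e| ≤ 5 / 4 * |u| := (abs_add_le _ _).trans (by linarith)
    calc n * |u + e| ≤ (5 / 4 * n₀) * (5 / 4 * |u|) :=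
          mul_le_mul h2 h8 (abs_nonneg _) (by positivity)
      _ ≤ 2 * n₀ * |u| := by
          have : 0 ≤ n₀ * |u| := by positivity
          nlinarith
      _ = _ := by rw [hux]; ring

theorem exists_slope {Q n n' d : ℝ} (hQ : 0 ≤ Q) (h : n ≤ n' → 0 ≤ d ∧ d ≤ Q * (n' - n))
    (h' : n' ≤ n → 0 ≤ -d ∧ -d ≤ Q * (n - n')) :
    ∃ μ, 0 ≤ μ ∧ μ ≤ Q ∧ d = μ * (n' - n) := by
  rcases lt_trichotomy n n' with h1 | h1 | h1
  · obtain ⟨h2, h3⟩ := h h1.le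
    have h4 : 0 < n' - n := by linarith
    exact ⟨d / (n' - n), by positivity, by rw [div_le_iff₀ h4]; exact h3, by field_simp⟩
  · obtain ⟨h2, h3⟩ := h h1.le
    obtain ⟨h4, h5⟩ := h' h1.ge
    refine ⟨0, le_rfl, hQ, ?_⟩
    linarith
  · obtain ⟨h2, h3⟩ := h' h1.le
    have h4 : 0 < n - n' := by linarith
    refine ⟨-d / (n - n'), by positivity, by rw [div_le_iff₀ h4]; exact h3, ?_⟩
    field_simp
    ring

theorem inner_mul_left_complex (E₀ Z c : ℂ) : inner ℝ (E₀ * Z) c =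
    Z.re * ((starRingEnd ℂ) E₀ * c).re + Z.im * ((starRingEnd ℂ) E₀ * c).im := by
  rw [inner_complex]
  simp only [Complex.mul_re, Complex.mul_im, Complex.conj_re, Complex.conj_im]
  ring

/-- The pointwise estimate. -/
theorem zdir_point {n₀ σ D₁ β₀ Q K ε ε₁ : ℝ} {E₀ W₀ Ev Ev' Wp Cp c : ℂ} {n n' mm mm' x w : ℝ}
    (hn₀ : 0 < n₀) (hβ₀ : 0 < β₀) (hD₁ : 0 < D₁) (hσ0 : 0 < σ) (hσ1 : σ ≤ 1) (hQ : 0 ≤ Q)
    (hρ : 8 * n₀ * (Q * K) ^ 2 * σ ≤ D₁ * β₀)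
    (hε1 : 2 * ε ≤ D₁ * n₀ * σ / 4) (hε2 : 2 * ε ≤ β₀ / 2)
    (hε₁ : 0 < ε₁) (hε₁' : (4 * n₀ + 8 * n₀ * Q + 1 + 2 * β₀) * ε₁ ≤ ε)
    (hE : ‖E₀‖ = 1) (hx : x = ((starRingEnd ℂ) E₀ * c).re) (hw : w = ((starRingEnd ℂ) E₀ * c).im)
    (hωK : ‖1 - W₀ * (starRingEnd ℂ) E₀‖ ≤ K) (hD1 : D₁ ≤ 1)
    (hD2 : D₁ ≤ 1 - Q * (1 - W₀ * (starRingEnd ℂ) E₀).re)
    (h1 : 3 / 4 * n₀ ≤ n) (h2 : n ≤ 5 / 4 * n₀) (hc : ‖c‖ ≤ 1 / 4)
    (hn' : n' = Real.exp (σ * x) * n)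
    (hm1 : n ≤ n' → 0 ≤ mm' - mm ∧ mm' - mm ≤ Q * (n' - n))
    (hm2 : n' ≤ n → 0 ≤ -(mm' - mm) ∧ -(mm' - mm) ≤ Q * (n - n'))
    (hEv' : ‖Ev' - E₀‖ ≤ 2 * ε₁) (hW : ‖Wp - W₀‖ ≤ 2 * ε₁)
    (hβ : |n - mm - β₀| ≤ ε₁) (hEE : ‖Ev' - Ev‖ ≤ |w|)
    (hEE' : ‖Ev' - Ev - Complex.I * E₀ * (w : ℂ)‖ ≤ 2 * ε₁ * |w|) :
    ε * ‖c‖ ^ 2 ≤ inner ℝ ((((n' - mm' : ℝ) : ℂ) * Ev' + (mm' : ℂ) * Wp + Cp) -
        (((n - mm : ℝ) : ℂ) * Ev + (mm : ℂ) * Wp + Cp)) c ∧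
      ‖(((n' - mm' : ℝ) : ℂ) * Ev' + (mm' : ℂ) * Wp + Cp) -
        (((n - mm : ℝ) : ℂ) * Ev + (mm : ℂ) * Wp + Cp)‖ ≤
          (2 * n₀ + 4 * n₀ * Q * K + β₀ + ε) * ‖c‖ := by
  have hcn : 0 ≤ ‖c‖ := norm_nonneg c
  have hRn : ‖(starRingEnd ℂ) E₀ * c‖ = ‖c‖ := by
    rw [norm_mul, RCLike.norm_conj, hE, one_mul]
  have hxc : |x| ≤ ‖c‖ := by rw [← hRn, hx]; exact Complex.abs_re_le_norm _
  have hwc : |w| ≤ ‖c‖ := by rw [← hRn, hw]; exact Complex.abs_im_le_norm _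
  have hc2 : ‖c‖ ^ 2 = x ^ 2 + w ^ 2 := by
    rw [← hRn, Complex.sq_norm, Complex.normSq_apply, hx, hw]; ring
  have hu : |σ * x| ≤ 1 / 4 := by
    rw [abs_mul, abs_of_pos hσ0]
    calc σ * |x| ≤ 1 * ‖c‖ := mul_le_mul hσ1 hxc (abs_nonneg _) zero_le_one
      _ ≤ 1 / 4 := by linarith
  obtain ⟨hδ1, hδ2⟩ := radius_incr hn₀ hσ0 h1 h2 hu hn'
  obtain ⟨μ, hμ0, hμQ, hμ⟩ := exists_slope hQ hm1 hm2
  set δ : ℝ := n' - n with hδ
  set ω : ℂ := 1 - W₀ * (starRingEnd ℂ) E₀ with hω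
  have hω1 : |ω.re| ≤ K := (Complex.abs_re_le_norm _).trans hωK
  have hω2 : |ω.im| ≤ K := (Complex.abs_im_le_norm _).trans hωK
  have hD : D₁ ≤ 1 - μ * ω.re := by
    rcases le_total 0 ω.re with h | h
    · have : μ * ω.re ≤ Q * ω.re := mul_le_mul_of_nonneg_right hμQ h
      linarith
    · have : μ * ω.re ≤ 0 := mul_nonpos_of_nonneg_of_nonpos hμ0 h
      linarith
  have hδc : |δ| ≤ 2 * n₀ * ‖c‖ := by
    refine hδ2.trans ?_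
    calc 2 * n₀ * σ * |x| = 2 * n₀ * (σ * |x|) := by ring
      _ ≤ 2 * n₀ * (1 * ‖c‖) := by
          refine mul_le_mul_of_nonneg_left ?_ (by positivity)
          exact mul_le_mul hσ1 hxc (abs_nonneg _) zero_le_one
      _ = _ := by ring
  have hμδ : |μ * δ| ≤ Q * (2 * n₀ * ‖c‖) := by
    rw [abs_mul, abs_of_nonneg hμ0]
    exact mul_le_mul hμQ hδc (abs_nonneg _) hQ
  set Er : ℂ := (δ : ℂ) * (Ev' - E₀) - ((μ * δ : ℝ) : ℂ) * ((Ev' - E₀) - (Wp - W₀)) +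
    ((n - mm - β₀ : ℝ) : ℂ) * (Ev' - Ev) + (β₀ : ℂ) * (Ev' - Ev - Complex.I * E₀ * (w : ℂ)) with hEr
  have hEE0 : E₀ * (starRingEnd ℂ) E₀ = 1 := by
    rw [Complex.mul_conj, Complex.normSq_eq_norm_sq, hE]; norm_num
  have hdec : (((n' - mm' : ℝ) : ℂ) * Ev' + (mm' : ℂ) * Wp + Cp) -
        (((n - mm : ℝ) : ℂ) * Ev + (mm : ℂ) * Wp + Cp) =
      E₀ * (⟨δ - μ * δ * ω.re, β₀ * w - μ * δ * ω.im⟩ : ℂ) + Er := by
    have h3 : (⟨δ - μ * δ * ω.re, β₀ * w - μ * δ * ω.im⟩ : ℂ) =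
        (δ : ℂ) - ((μ * δ : ℝ) : ℂ) * ω + Complex.I * ((β₀ * w : ℝ) : ℂ) := by
      apply Complex.ext
      · simp only [Complex.add_re, Complex.sub_re, Complex.mul_re, Complex.ofReal_re,
          Complex.ofReal_im, Complex.I_re, Complex.I_im]
        ring
      · simp only [Complex.add_im, Complex.sub_im, Complex.mul_im, Complex.ofReal_re,
          Complex.ofReal_im, Complex.I_re, Complex.I_im]
        ring
    have h4 : E₀ * ω = E₀ - W₀ := by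
      rw [hω]
      calc E₀ * (1 - W₀ * (starRingEnd ℂ) E₀) = E₀ - W₀ * (E₀ * (starRingEnd ℂ) E₀) := by ring
        _ = _ := by rw [hEE0, mul_one]
    have h5 : E₀ * ((δ : ℂ) - ((μ * δ : ℝ) : ℂ) * ω + Complex.I * ((β₀ * w : ℝ) : ℂ)) =
        (δ : ℂ) * E₀ - ((μ * δ : ℝ) : ℂ) * (E₀ - W₀) + Complex.I * E₀ * ((β₀ * w : ℝ) : ℂ) := by
      rw [← h4]; ring
    have h6 : (mm' : ℂ) = (mm : ℂ) + ((μ * δ : ℝ) : ℂ) := by
      rw [← hμ]; push_cast; ring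
    have h7 : ((n' - mm' : ℝ) : ℂ) = ((n - mm : ℝ) : ℂ) + (δ : ℂ) - ((μ * δ : ℝ) : ℂ) := by
      rw [← hμ, hδ]; push_cast; ring
    rw [h3, h5, h7, h6, hEr]
    push_cast
    ring
  have hErn : ‖Er‖ ≤ ε * ‖c‖ := by
    have q1 : ‖(δ : ℂ) * (Ev' - E₀)‖ ≤ 2 * n₀ * ‖c‖ * (2 * ε₁) := by
      rw [norm_mul, Complex.norm_real, Real.norm_eq_abs]
      exact mul_le_mul hδc hEv' (norm_nonneg _) (by positivity)
    have q2 : ‖((μ * δ : ℝ) : ℂ) * ((Ev' - E₀) - (Wp - W₀))‖ ≤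
        Q * (2 * n₀ * ‖c‖) * (4 * ε₁) := by
      rw [norm_mul, Complex.norm_real, Real.norm_eq_abs]
      refine mul_le_mul hμδ ((norm_sub_le _ _).trans ?_) (norm_nonneg _) (by positivity)
      linarith
    have q3 : ‖((n - mm - β₀ : ℝ) : ℂ) * (Ev' - Ev)‖ ≤ ε₁ * ‖c‖ := by
      rw [norm_mul, Complex.norm_real, Real.norm_eq_abs]
      exact mul_le_mul hβ (hEE.trans hwc) (norm_nonneg _) hε₁.le
    have q4 : ‖(β₀ : ℂ) * (Ev' - Ev - Complex.I * E₀ * (w : ℂ))‖ ≤ β₀ * (2 * ε₁ * ‖c‖) := by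
      rw [norm_mul, Complex.norm_real, Real.norm_eq_abs, abs_of_pos hβ₀]
      refine mul_le_mul_of_nonneg_left (hEE'.trans ?_) hβ₀.le
      exact mul_le_mul_of_nonneg_left hwc (by positivity)
    have q5 : ‖Er‖ ≤ 2 * n₀ * ‖c‖ * (2 * ε₁) + Q * (2 * n₀ * ‖c‖) * (4 * ε₁) + ε₁ * ‖c‖ +
        β₀ * (2 * ε₁ * ‖c‖) := by
      rw [hEr]
      refine (norm_add_le _ _).trans (add_le_add ((norm_add_le _ _).trans (add_le_add
        ((norm_sub_le _ _).trans (add_le_add q1 q2)) q3)) q4)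
    refine q5.trans ?_
    have q6 : 2 * n₀ * ‖c‖ * (2 * ε₁) + Q * (2 * n₀ * ‖c‖) * (4 * ε₁) + ε₁ * ‖c‖ +
        β₀ * (2 * ε₁ * ‖c‖) = ((4 * n₀ + 8 * n₀ * Q + 1 + 2 * β₀) * ε₁) * ‖c‖ := by ring
    rw [q6]
    exact mul_le_mul_of_nonneg_right hε₁' hcn
  rw [hdec]
  constructor
  · have h8 := zdir_alg hn₀ hβ₀ hD₁ hσ0 hQ hρ hμ0 hμQ hω2 hD hδ1 hδ2 (w := w)
    rw [inner_add_left, inner_mul_left_complex, ← hx, ← hw]
    have h9 : |inner ℝ Er c| ≤ ε * ‖c‖ * ‖c‖ :=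
      (abs_real_inner_le_norm _ _).trans (mul_le_mul_of_nonneg_right hErn hcn)
    have h10 := (abs_le.mp h9).1
    have h11 : 2 * ε * x ^ 2 ≤ D₁ * n₀ * σ / 4 * x ^ 2 :=
      mul_le_mul_of_nonneg_right hε1 (sq_nonneg x)
    have h11' : 2 * ε * w ^ 2 ≤ β₀ / 2 * w ^ 2 := mul_le_mul_of_nonneg_right hε2 (sq_nonneg w)
    have h11'' : ε * ‖c‖ * ‖c‖ = ε * x ^ 2 + ε * w ^ 2 := by
      rw [mul_assoc, ← sq, hc2]; ring
    have h12 : ε * ‖c‖ ^ 2 = ε * x ^ 2 + ε * w ^ 2 := by rw [hc2]; ring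
    rw [h12]
    rw [h11''] at h10
    show _ ≤ (δ - μ * δ * ω.re) * x + (β₀ * w - μ * δ * ω.im) * w + _
    linarith
  · refine (norm_add_le _ _).trans ?_
    have h12 : ‖E₀ * (⟨δ - μ * δ * ω.re, β₀ * w - μ * δ * ω.im⟩ : ℂ)‖ ≤
        |δ - μ * δ * ω.re| + |β₀ * w - μ * δ * ω.im| := by
      rw [norm_mul, hE, one_mul]
      exact Complex.norm_le_abs_re_add_abs_im _
    have h13 : |δ - μ * δ * ω.re| ≤ 2 * n₀ * ‖c‖ + Q * (2 * n₀ * ‖c‖) * K := by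
      refine (abs_sub _ _).trans (add_le_add hδc ?_)
      rw [abs_mul]
      exact mul_le_mul hμδ hω1 (abs_nonneg _) (by positivity)
    have h14 : |β₀ * w - μ * δ * ω.im| ≤ β₀ * ‖c‖ + Q * (2 * n₀ * ‖c‖) * K := by
      refine (abs_sub _ _).trans (add_le_add ?_ ?_)
      · rw [abs_mul, abs_of_pos hβ₀]
        exact mul_le_mul_of_nonneg_left hwc hβ₀.le
      · rw [abs_mul]
        exact mul_le_mul hμδ hω2 (abs_nonneg _) (by positivity)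
    have h15 : (2 * n₀ + 4 * n₀ * Q * K + β₀ + ε) * ‖c‖ = (2 * n₀ * ‖c‖ + Q * (2 * n₀ * ‖c‖) * K) +
        (β₀ * ‖c‖ + Q * (2 * n₀ * ‖c‖) * K) + ε * ‖c‖ := by ring
    rw [h15]
    linarith

section Main

variable {P : Type*} [TopologicalSpace P] {s : Set P} {p₀ : P} {z₀ : ℂ} {V : ℂ → ℝ} {al : ℝ}
  {C W : P → ℂ} {m : P → ℝ → ℝ} {Q : ℝ}

/-- Local hypothesis on the amplitude `m`. -/
def AmpLoc (s : Set P) (m : P → ℝ → ℝ) (Q : ℝ) (p₀ : P) (n₀ : ℝ) : Prop :=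
  ∃ η > 0, ∀ᶠ p in 𝓝[s] p₀, ∀ r r', |r - n₀| < η → |r' - n₀| < η → r ≤ r' →
    0 ≤ m p r' - m p r ∧ m p r' - m p r ≤ Q * (r' - r)

theorem ampLoc_abs (hm : AmpLoc s m Q p₀ ‖z₀‖) (hQ : 0 ≤ Q) :
    LocLip s (fun (p : P) (z : ℂ) => (m p ‖z‖ : ℂ)) p₀ z₀ := by
  obtain ⟨η, hη, h⟩ := hm
  refine ⟨Q, Metric.ball z₀ η, Metric.ball_mem_nhds _ hη, ?_⟩
  have key : ∀ x ∈ Metric.ball z₀ η, |‖x‖ - ‖z₀‖| < η := fun x hx => by
    rw [Metric.mem_ball, dist_eq_norm] at hx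
    exact (abs_norm_sub_norm_le x z₀).trans_lt hx
  filter_upwards [h] with p hp x hx y hy
  rw [← Complex.ofReal_sub, Complex.norm_real, Real.norm_eq_abs]
  have hnn := abs_norm_sub_norm_le x y
  rcases le_total ‖x‖ ‖y‖ with h | h
  · obtain ⟨e1, e2⟩ := hp _ _ (key x hx) (key y hy) h
    rw [abs_sub_comm, abs_of_nonneg e1]
    refine e2.trans (mul_le_mul_of_nonneg_left ?_ hQ)
    linarith [neg_abs_le (‖x‖ - ‖y‖)]
  · obtain ⟨e1, e2⟩ := hp _ _ (key y hy) (key x hx) h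
    rw [abs_of_nonneg e1]
    refine e2.trans (mul_le_mul_of_nonneg_left ?_ hQ)
    linarith [le_abs_self (‖x‖ - ‖y‖)]

theorem amp_cont (hmc : ContinuousWithinAt (fun x : P × ℝ => m x.1 x.2) (s ×ˢ univ) (p₀, ‖z₀‖)) :
    ContinuousWithinAt (fun x : P × ℂ => m x.1 ‖x.2‖) (s ×ˢ univ) (p₀, z₀) := by
  have e1 : ContinuousWithinAt (fun x : P × ℂ => (x.1, ‖x.2‖)) (s ×ˢ univ) (p₀, z₀) :=
    continuousWithinAt_fst.prodMk (continuous_norm.comp continuous_snd).continuousWithinAt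
  exact ContinuousWithinAt.comp (t := s ×ˢ (univ : Set ℝ)) (g := fun x : P × ℝ => m x.1 x.2)
    (f := fun x : P × ℂ => (x.1, ‖x.2‖)) hmc e1 (fun x hx => ⟨hx.1, mem_univ _⟩)

theorem zFn_locLip (hz₀ : z₀ ≠ 0) (hV : AngLift V al z₀) (hQ : 0 ≤ Q)
    (hm : AmpLoc s m Q p₀ ‖z₀‖)
    (hmc : ContinuousWithinAt (fun x : P × ℝ => m x.1 x.2) (s ×ˢ univ) (p₀, ‖z₀‖))
    (hW : ContinuousWithinAt W s p₀) : LocLip s (zFn V C W m) p₀ z₀ := by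
  have l1 : LocLip s (fun (_ : P) (y : ℂ) => (‖y‖ : ℂ)) p₀ z₀ :=
    LocLip.of_lip (K := 1) fun _ x y => by
      rw [← Complex.ofReal_sub, Complex.norm_real, one_mul, Real.norm_eq_abs]
      exact abs_norm_sub_norm_le x y
  have l2 : LocLip s (fun (_ : P) (y : ℂ) => Complex.exp (Complex.I * (V y : ℂ))) p₀ z₀ :=
    (hV.locLip hz₀).comp_lip (g := fun _ a => Complex.exp (Complex.I * (a : ℂ))) (K := 1)
      (fun _ a b => by rw [one_mul]; exact norm_expI_sub_le a b)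
  have l3 := ampLoc_abs hm hQ
  have hmc' : ContinuousWithinAt (fun x : P × ℂ => (m x.1 ‖x.2‖ : ℂ)) (s ×ˢ univ) (p₀, z₀) :=
    Complex.continuous_ofReal.continuousAt.comp_continuousWithinAt (amp_cont hmc)
  have b1 : LocBdd s (fun (p : P) (y : ℂ) => (‖y‖ : ℂ) - (m p ‖y‖ : ℂ)) p₀ z₀ := by
    refine LocBdd.of_cont ?_
    exact ((Complex.continuous_ofReal.comp (continuous_norm.comp
      continuous_snd)).continuousWithinAt).sub hmc'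
  have b2 : LocBdd s (fun (_ : P) (y : ℂ) => Complex.exp (Complex.I * (V y : ℂ))) p₀ z₀ :=
    ⟨1, univ, univ_mem, Eventually.of_forall fun _ y _ => (norm_expI (V y)).le⟩
  have b3 : LocBdd s (fun (p : P) (y : ℂ) => (m p ‖y‖ : ℂ)) p₀ z₀ := LocBdd.of_cont hmc'
  have b4 : LocBdd s (fun (p : P) (_ : ℂ) => W p) p₀ z₀ := by
    refine LocBdd.of_cont ?_
    exact ContinuousWithinAt.comp (t := s) (g := W) (f := Prod.fst) hW continuousWithinAt_fst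
      (fun x hx => hx.1)
  have l5 : LocLip s (fun (p : P) (_ : ℂ) => W p) p₀ z₀ := LocLip.of_const (c := W) fun _ _ => rfl
  have l6 : LocLip s (fun (p : P) (_ : ℂ) => C p) p₀ z₀ := LocLip.of_const (c := C) fun _ _ => rfl
  refine ((((l1.sub594 l3).mul l2 b1 b2).add (l3.mul l5 b3 b4)).add l6).congr
    ⟨univ, univ_mem, Eventually.of_forall fun p z _ => ?_⟩
  rw [zFn]
  push_cast
  rfl

/-- **The `z`-direction lemma.** -/
theorem RegAt.of_zdir (hz₀ : z₀ ≠ 0) (hal : 0 < al) (hV : AngLift V al z₀) (hQ : 0 ≤ Q)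
    (hm : AmpLoc s m Q p₀ ‖z₀‖)
    (hmc : ContinuousWithinAt (fun x : P × ℝ => m x.1 x.2) (s ×ˢ univ) (p₀, ‖z₀‖))
    (hW : ContinuousWithinAt W s p₀) (hb : m p₀ ‖z₀‖ < ‖z₀‖)
    (hQ1 : Q * (1 - W p₀ * (starRingEnd ℂ) (Complex.exp (Complex.I * (V z₀ : ℂ)))).re < 1) :
    RegAt s (zFn V C W m) p₀ z₀ := by
  have hn₀0 : 0 < ‖z₀‖ := norm_pos_iff.mpr hz₀
  set n₀ : ℝ := ‖z₀‖ with hn₀
  set E₀ : ℂ := Complex.exp (Complex.I * (V z₀ : ℂ)) with hE₀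
  have hE : ‖E₀‖ = 1 := norm_expI _
  set W₀ : ℂ := W p₀ with hW₀
  set β₀ : ℝ := n₀ - m p₀ n₀ with hβ₀
  have hβ₀0 : 0 < β₀ := by rw [hβ₀]; linarith
  set ω₀ : ℂ := 1 - W₀ * (starRingEnd ℂ) E₀ with hω₀
  set K : ℝ := ‖ω₀‖ + 1 with hK
  have hK0 : 0 < K := by positivity
  set D₁ : ℝ := min 1 (1 - Q * ω₀.re) with hD₁
  have hD₁0 : 0 < D₁ := lt_min one_pos (by linarith)
  set σ : ℝ := min 1 (D₁ * β₀ / (8 * n₀ * (Q * K) ^ 2 + 1)) with hσ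
  have hσ0 : 0 < σ := lt_min one_pos (by positivity)
  have hσ1 : σ ≤ 1 := min_le_left _ _
  have hρ : 8 * n₀ * (Q * K) ^ 2 * σ ≤ D₁ * β₀ := by
    have h1 : σ ≤ D₁ * β₀ / (8 * n₀ * (Q * K) ^ 2 + 1) := min_le_right _ _
    rw [le_div_iff₀ (by positivity)] at h1
    nlinarith
  set ε : ℝ := min (D₁ * n₀ * σ / 8) (β₀ / 4) with hε
  have hε0 : 0 < ε := lt_min (by positivity) (by positivity)
  have hε1 : 2 * ε ≤ D₁ * n₀ * σ / 4 := by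
    have : ε ≤ D₁ * n₀ * σ / 8 := min_le_left _ _
    linarith
  have hε2 : 2 * ε ≤ β₀ / 2 := by
    have : ε ≤ β₀ / 4 := min_le_right _ _
    linarith
  set ε₁ : ℝ := ε / (4 * n₀ + 8 * n₀ * Q + 1 + 2 * β₀) with hε₁
  have hε₁0 : 0 < ε₁ := by positivity
  have hε₁' : (4 * n₀ + 8 * n₀ * Q + 1 + 2 * β₀) * ε₁ ≤ ε := by
    rw [hε₁, mul_div_cancel₀]
    positivity
  have hRn : ∀ c : ℂ, ‖(starRingEnd ℂ) E₀ * c‖ = ‖c‖ := by
    intro c; rw [norm_mul, RCLike.norm_conj, hE, one_mul]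
  -- the plot
  set R : ℂ →L[ℝ] ℂ := ContinuousLinearMap.mul ℝ ℂ ((starRingEnd ℂ) E₀) with hR
  set D : ℂ →L[ℝ] ℂ := cols (σ : ℂ) (Complex.I / (al : ℂ)) with hD
  have hpl : IsPlot (fun (c : ℂ) (y : ℂ) => Complex.exp (D (R c)) * y)
      ((ContinuousLinearMap.mul ℝ ℂ z₀).comp (D.comp R)) z₀ := by
    intro e he
    obtain ⟨U, hU, δ, hδ, h⟩ := exp_mul_est (a₁ := (σ : ℂ))
      (a₂ := Complex.I / (al : ℂ)) (y₀ := z₀) he
    refine ⟨U, hU, δ, hδ, fun y hy c hc => ?_⟩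
    have e1 := h y hy (R c) (by rw [hR]; exact (hRn c).le.trans hc)
    have e2 : ‖R c‖ = ‖c‖ := hRn c
    rw [e2] at e1
    exact e1
  obtain ⟨U1, hU1, δ1, hδ1, h1⟩ := hV.exp hz₀
  obtain ⟨η, hη, hmη⟩ := hm
  have hU2 : Metric.ball z₀ (min (n₀ / 4) (η / 2)) ∈ 𝓝 z₀ := Metric.ball_mem_nhds _ (by positivity)
  have hU3 : ∀ᶠ z in 𝓝 z₀, |V z - V z₀| < ε₁ := by
    have := Metric.tendsto_nhds.mp (hV.continuousAt hz₀) ε₁ hε₁0
    filter_upwards [this] with y hy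
    rwa [Real.dist_eq] at hy
  have hβc : ContinuousWithinAt (fun x : P × ℂ => ‖x.2‖ - m x.1 ‖x.2‖) (s ×ˢ univ) (p₀, z₀) :=
    (continuous_norm.comp continuous_snd).continuousWithinAt.sub (amp_cont hmc)
  obtain ⟨U4, hU4, h4⟩ := ev_near hβc hε₁0
  have hW4 : ∀ᶠ p in 𝓝[s] p₀, ‖W p - W₀‖ ≤ 2 * ε₁ := by
    have := Metric.tendsto_nhds.mp hW (2 * ε₁) (by positivity)
    filter_upwards [this] with p hp
    rw [dist_eq_norm] at hp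
    exact hp.le
  set δ : ℝ := min (min δ1 (1 / 4)) (min (η / (4 * n₀)) ε₁) / (1 + 1 / al) with hδ
  have hal1 : 0 < 1 + 1 / al := by positivity
  have hal2 : 1 ≤ 1 + 1 / al := by
    have : 0 < 1 / al := by positivity
    linarith
  have hδ0 : 0 < δ := by positivity
  refine RegAt.of_plot (κ := ε) (Λ := 2 * n₀ + 4 * n₀ * Q * K + β₀ + ε) hε0 hpl
    (zFn_locLip hz₀ hV hQ ⟨η, hη, hmη⟩ hmc hW)
    ⟨U1 ∩ Metric.ball z₀ (min (n₀ / 4) (η / 2)) ∩ {z | |V z - V z₀| < ε₁} ∩ U4,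
      inter_mem (inter_mem (inter_mem hU1 hU2) hU3) hU4, δ, hδ0, ?_⟩
  filter_upwards [hmη, h4, hW4] with p q1 q2 q3 z hz c hc
  obtain ⟨⟨⟨z1, z2⟩, z3⟩, z4⟩ := hz
  have hcm : (1 + 1 / al) * ‖c‖ ≤ min (min δ1 (1 / 4)) (min (η / (4 * n₀)) ε₁) := by
    rw [hδ, le_div_iff₀ hal1] at hc
    rw [mul_comm]; exact hc
  have hcm' : ‖c‖ ≤ min (min δ1 (1 / 4)) (min (η / (4 * n₀)) ε₁) := by
    refine le_trans ?_ hcm
    nlinarith [norm_nonneg c]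
  have hc1 := hcm.trans ((min_le_left _ _).trans (min_le_left _ _))
  have hc2 := hcm'.trans ((min_le_left _ _).trans (min_le_right _ _))
  have hc3 := hcm'.trans ((min_le_right _ _).trans (min_le_left _ _))
  have hc4 := hcm'.trans ((min_le_right _ _).trans (min_le_right _ _))
  set x : ℝ := ((starRingEnd ℂ) E₀ * c).re with hx
  set w : ℝ := ((starRingEnd ℂ) E₀ * c).im with hw
  have hxc : |x| ≤ ‖c‖ := by rw [← hRn c]; exact Complex.abs_re_le_norm _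
  have hwc : |w| ≤ ‖c‖ := by rw [← hRn c]; exact Complex.abs_im_le_norm _
  set ξ : ℂ := D (R c) with hξ
  have hξe : ξ = (x : ℂ) * (σ : ℂ) + (w : ℂ) * (Complex.I / (al : ℂ)) := by
    rw [hξ, hD, cols_apply]; rfl
  have hIal : Complex.I / (al : ℂ) = ((1 / al : ℝ) : ℂ) * Complex.I := by
    push_cast; ring
  have hξre : ξ.re = σ * x := by
    rw [hξe, hIal]
    simp only [Complex.add_re, Complex.mul_re, Complex.ofReal_re, Complex.ofReal_im,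
      Complex.I_re, Complex.I_im, Complex.mul_im]
    ring
  have hξim : al * ξ.im = w := by
    rw [hξe, hIal]
    simp only [Complex.add_im, Complex.mul_im, Complex.ofReal_re, Complex.ofReal_im,
      Complex.I_re, Complex.I_im, Complex.mul_re]
    field_simp
    ring
  have hξn : ‖ξ‖ ≤ δ1 := by
    have e0 : ‖ξ‖ ≤ (‖(σ : ℂ)‖ + ‖Complex.I / (al : ℂ)‖) * ‖R c‖ := norm_cols_le _ _ _
    refine (e0.trans ?_).trans hc1
    have e2 : ‖R c‖ = ‖c‖ := hRn c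
    rw [e2]
    refine mul_le_mul_of_nonneg_right ?_ (norm_nonneg _)
    have e1 : ‖(σ : ℂ)‖ ≤ 1 := by
      rw [Complex.norm_real, Real.norm_eq_abs, abs_of_nonneg hσ0.le]; exact hσ1
    have e2 : ‖Complex.I / (al : ℂ)‖ = 1 / al := by
      rw [norm_div, Complex.norm_I, Complex.norm_real, Real.norm_eq_abs, abs_of_pos hal]
    linarith
  have hVz : V (Complex.exp ξ * z) = V z + w := by rw [h1 z z1 ξ hξn, hξim]
  have hnz : ‖Complex.exp ξ * z‖ = Real.exp (σ * x) * ‖z‖ := by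
    rw [norm_mul, Complex.norm_exp, hξre]
  have hz2 : |‖z‖ - n₀| < min (n₀ / 4) (η / 2) := by
    rw [Metric.mem_ball, dist_eq_norm] at z2
    exact (abs_norm_sub_norm_le z z₀).trans_lt z2
  obtain ⟨hz2a, hz2b⟩ := abs_lt.mp (hz2.trans_le (min_le_left _ _))
  have hn1 : 3 / 4 * n₀ ≤ ‖z‖ := by linarith
  have hn2 : ‖z‖ ≤ 5 / 4 * n₀ := by linarith
  have hu : |σ * x| ≤ 1 / 4 := by
    rw [abs_mul, abs_of_pos hσ0]
    calc σ * |x| ≤ 1 * ‖c‖ := mul_le_mul hσ1 hxc (abs_nonneg _) zero_le_one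
      _ ≤ 1 / 4 := by linarith
  obtain ⟨-, hδn⟩ := radius_incr hn₀0 hσ0 hn1 hn2 hu hnz
  have hzη : |‖z‖ - n₀| < η := by
    have := hz2.trans_le (min_le_right _ _)
    linarith
  have hzη' : |‖Complex.exp ξ * z‖ - n₀| < η := by
    have e1 : |‖Complex.exp ξ * z‖ - ‖z‖| ≤ η / 2 := by
      refine hδn.trans ?_
      have e2 : σ * |x| ≤ ‖c‖ := by
        calc σ * |x| ≤ 1 * ‖c‖ := mul_le_mul hσ1 hxc (abs_nonneg _) zero_le_one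
          _ = ‖c‖ := one_mul _
      rw [le_div_iff₀ (by positivity)] at hc3
      calc 2 * n₀ * σ * |x| = 2 * n₀ * (σ * |x|) := by ring
        _ ≤ 2 * n₀ * ‖c‖ := mul_le_mul_of_nonneg_left e2 (by positivity)
        _ ≤ η / 2 := by linarith
    have e3 := hz2.trans_le (min_le_right _ _)
    have e4 : ‖Complex.exp ξ * z‖ - n₀ = (‖Complex.exp ξ * z‖ - ‖z‖) + (‖z‖ - n₀) := by ring
    rw [e4]
    exact (abs_add_le _ _).trans_lt (by linarith)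
  have hVV : |V z - V z₀| < ε₁ := z3
  have hEv' : ‖Complex.exp (Complex.I * ((V z + w : ℝ) : ℂ)) - E₀‖ ≤ 2 * ε₁ := by
    refine (norm_expI_sub_le _ _).trans ?_
    rw [Real.norm_eq_abs]
    have e : V z + w - V z₀ = (V z - V z₀) + w := by ring
    rw [e]
    refine (abs_add_le _ _).trans ?_
    linarith [hwc.trans hc4]
  have hEE : ‖Complex.exp (Complex.I * ((V z + w : ℝ) : ℂ)) -
      Complex.exp (Complex.I * (V z : ℂ))‖ ≤ |w| := by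
    refine (norm_expI_sub_le _ _).trans ?_
    rw [Real.norm_eq_abs, add_sub_cancel_left]
  have hEE' : ‖Complex.exp (Complex.I * ((V z + w : ℝ) : ℂ)) -
      Complex.exp (Complex.I * (V z : ℂ)) - Complex.I * E₀ * (w : ℂ)‖ ≤ 2 * ε₁ * |w| := by
    have e := expI_est (V z) (V z + w) (V z₀) (by
      rw [add_sub_cancel_left]; linarith [hwc.trans hc2])
    rw [add_sub_cancel_left] at e
    refine e.trans (mul_le_mul_of_nonneg_right ?_ (abs_nonneg _))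
    linarith [hwc.trans hc4]
  have hβz : |‖z‖ - m p ‖z‖ - β₀| ≤ ε₁ := q2 z z4
  have key := zdir_point (Cp := C p) (mm := m p ‖z‖) (mm' := m p ‖Complex.exp ξ * z‖)
    hn₀0 hβ₀0 hD₁0 hσ0 hσ1 hQ hρ hε1 hε2 hε₁0 hε₁' hE hx hw
    (by rw [hK]; linarith) (min_le_left _ _) (min_le_right _ _) hn1 hn2 hc2 hnz
    (fun h => q1 _ _ hzη hzη' h) (fun h => by
      obtain ⟨e1, e2⟩ := q1 _ _ hzη' hzη h
      exact ⟨by linarith, by linarith⟩) hEv' q3 hβz hEE hEE'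
  have e1 : zFn V C W m p (Complex.exp ξ * z) =
      ((‖Complex.exp ξ * z‖ - m p ‖Complex.exp ξ * z‖ : ℝ) : ℂ) *
        Complex.exp (Complex.I * ((V z + w : ℝ) : ℂ)) +
        (m p ‖Complex.exp ξ * z‖ : ℂ) * W p + C p := by
    rw [zFn, hVz]
  rw [e1]
  exact key

end Main

end Vale.Agent.P268.T
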