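import Vale.Agent.P268.T.H594.KinkProf

/-!
# P268, topological half, route V: Lipschitz bounds for functions of the angle

`circ_lip`: if `φ` is `K`-Lipschitz on `[-π, π]` and `eI (φ π) = eI (φ (-π))`, then
`‖z‖ * ‖eI (φ (arg z)) - eI (φ (arg w))‖ ≤ K * π * ‖z - w‖`.
-/

set_option linter.unusedSectionVars false

namespace Vale.Agent.P268.T.RV.C603

open Set Filter Topology

theorem norm_eI (x : ℝ) : ‖eI x‖ = 1 := by
  unfold eI
  rw [mul_comm]
  exact Complex.norm_exp_ofReal_mul_I x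

theorem norm_eI_sub_le (x y : ℝ) : ‖eI x - eI y‖ ≤ |x - y| := by
  unfold eI
  exact norm_expI_sub_le x y

theorem norm_eI_sub (x y : ℝ) : ‖eI x - eI y‖ = |2 * Real.sin ((x - y) / 2)| := by
  have e : eI x - eI y = eI y * (Complex.exp (Complex.I * ((x - y : ℝ) : ℂ)) - 1) := by
    unfold eI
    rw [mul_sub, ← Complex.exp_add, mul_one]
    congr 2
    push_cast
    ring
  rw [e, norm_mul, norm_eI, one_mul, Complex.norm_exp_I_mul_ofReal_sub_one, Real.norm_eq_abs]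

theorem continuous_eI : Continuous eI := by
  unfold eI
  fun_prop

theorem eI_odd (k : ℕ) : eI ((2 * k + 1) * Real.pi) = -1 := by
  have h : Complex.exp (Complex.I * (((2 * k + 1) * Real.pi : ℝ) : ℂ)) =
      Complex.exp ((k : ℂ) * (2 * Real.pi * Complex.I)) * Complex.exp (Real.pi * Complex.I) := by
    rw [← Complex.exp_add]
    congr 1
    push_cast
    ring
  unfold eI
  rw [h, Complex.exp_nat_mul_two_pi_mul_I, Complex.exp_pi_mul_I, one_mul]

/-- Polar coordinates. -/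
theorem polar (z : ℂ) : ((‖z‖ : ℝ) : ℂ) * eI (Complex.arg z) = z := by
  unfold eI
  rw [mul_comm Complex.I]
  exact Complex.norm_mul_exp_arg_mul_I z

/-- The chord between the directions of `z` and `w`. -/
theorem norm_mul_chord_le (z w : ℂ) :
    ‖z‖ * ‖eI (Complex.arg z) - eI (Complex.arg w)‖ ≤ 2 * ‖z - w‖ := by
  have e : ((‖z‖ : ℝ) : ℂ) * (eI (Complex.arg z) - eI (Complex.arg w)) =
      (z - w) + ((‖w‖ - ‖z‖ : ℝ) : ℂ) * eI (Complex.arg w) := by
    rw [mul_sub, polar]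
    conv_rhs => rw [← polar w]
    rw [polar w]
    push_cast
    rw [sub_mul, polar w]
    ring
  have h1 : ‖z‖ * ‖eI (Complex.arg z) - eI (Complex.arg w)‖ =
      ‖(z - w) + ((‖w‖ - ‖z‖ : ℝ) : ℂ) * eI (Complex.arg w)‖ := by
    rw [← e, norm_mul, Complex.norm_real, norm_norm]
  rw [h1]
  refine (norm_add_le _ _).trans ?_
  rw [norm_mul, norm_eI, mul_one, Complex.norm_real, Real.norm_eq_abs]
  have h2 := abs_norm_sub_norm_le w z
  rw [norm_sub_rev] at h2
  linarith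

/-- Functions of the angle. -/
theorem circ_le {φ : ℝ → ℝ} {K θ ψ : ℝ} (hK : 0 ≤ K)
    (hφ : ∀ x ∈ Icc (-Real.pi) Real.pi, ∀ y ∈ Icc (-Real.pi) Real.pi, |φ x - φ y| ≤ K * |x - y|)
    (hcut : eI (φ Real.pi) = eI (φ (-Real.pi))) (hθ : θ ∈ Icc (-Real.pi) Real.pi)
    (hψ : ψ ∈ Icc (-Real.pi) Real.pi) (hle : θ ≤ ψ) :
    ‖eI (φ θ) - eI (φ ψ)‖ ≤ K * (Real.pi / 2) * ‖eI θ - eI ψ‖ := by
  have hpi := Real.pi_pos
  have hl : (-Real.pi) ∈ Icc (-Real.pi) Real.pi := ⟨le_rfl, by linarith⟩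
  have hr : Real.pi ∈ Icc (-Real.pi) Real.pi := ⟨by linarith, le_rfl⟩
  have h1 : ‖eI (φ θ) - eI (φ ψ)‖ ≤ K * (ψ - θ) := by
    refine (norm_eI_sub_le _ _).trans ((hφ _ hθ _ hψ).trans ?_)
    rw [abs_sub_comm, abs_of_nonneg (by linarith)]
  have h2 : ‖eI (φ θ) - eI (φ ψ)‖ ≤ K * (2 * Real.pi - (ψ - θ)) := by
    have e : eI (φ θ) - eI (φ ψ) = (eI (φ θ) - eI (φ (-Real.pi))) +
        (eI (φ Real.pi) - eI (φ ψ)) := by rw [hcut]; ring
    rw [e]
    refine (norm_add_le _ _).trans ?_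
    have e1 := (norm_eI_sub_le (φ θ) (φ (-Real.pi))).trans (hφ _ hθ _ hl)
    have e2 := (norm_eI_sub_le (φ Real.pi) (φ ψ)).trans (hφ _ hr _ hψ)
    rw [abs_of_nonneg (by linarith [hθ.1])] at e1
    rw [abs_of_nonneg (by linarith [hψ.2])] at e2
    calc _ ≤ K * (θ - -Real.pi) + K * (Real.pi - ψ) := add_le_add e1 e2
      _ = _ := by ring
  have h3 : ‖eI θ - eI ψ‖ = 2 * Real.sin ((ψ - θ) / 2) := by
    rw [norm_sub_rev, norm_eI_sub, abs_of_nonneg]
    have : 0 ≤ Real.sin ((ψ - θ) / 2) :=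
      Real.sin_nonneg_of_nonneg_of_le_pi (by linarith) (by linarith [hθ.1, hψ.2])
    linarith
  rw [h3]
  rcases le_total (ψ - θ) Real.pi with h | h
  · have h4 := Real.mul_le_sin (x := (ψ - θ) / 2) (by linarith) (by linarith)
    refine h1.trans ?_
    have h5 : ψ - θ ≤ Real.pi / 2 * (2 * Real.sin ((ψ - θ) / 2)) := by
      calc ψ - θ = Real.pi / 2 * (2 * (2 / Real.pi * ((ψ - θ) / 2))) := by field_simp
        _ ≤ _ := by
          refine mul_le_mul_of_nonneg_left ?_ (by positivity)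
          linarith
    calc K * (ψ - θ) ≤ K * (Real.pi / 2 * (2 * Real.sin ((ψ - θ) / 2))) :=
          mul_le_mul_of_nonneg_left h5 hK
      _ = _ := by ring
  · have h4 := Real.mul_le_sin (x := Real.pi - (ψ - θ) / 2) (by linarith [hθ.1, hψ.2])
      (by linarith)
    rw [Real.sin_pi_sub] at h4
    refine h2.trans ?_
    have h5 : 2 * Real.pi - (ψ - θ) ≤ Real.pi / 2 * (2 * Real.sin ((ψ - θ) / 2)) := by
      calc 2 * Real.pi - (ψ - θ) =
            Real.pi / 2 * (2 * (2 / Real.pi * (Real.pi - (ψ - θ) / 2))) := by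
            field_simp
        _ ≤ _ := by
          refine mul_le_mul_of_nonneg_left ?_ (by positivity)
          linarith
    calc K * (2 * Real.pi - (ψ - θ)) ≤ K * (Real.pi / 2 * (2 * Real.sin ((ψ - θ) / 2))) :=
          mul_le_mul_of_nonneg_left h5 hK
      _ = _ := by ring

/-- **Circle-Lipschitz lemma.** -/
theorem circ_lip {φ : ℝ → ℝ} {K : ℝ} (hK : 0 ≤ K)
    (hφ : ∀ x ∈ Icc (-Real.pi) Real.pi, ∀ y ∈ Icc (-Real.pi) Real.pi, |φ x - φ y| ≤ K * |x - y|)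
    (hcut : eI (φ Real.pi) = eI (φ (-Real.pi))) (z w : ℂ) :
    ‖z‖ * ‖eI (φ (Complex.arg z)) - eI (φ (Complex.arg w))‖ ≤ K * Real.pi * ‖z - w‖ := by
  have hpi := Real.pi_pos
  have hz : Complex.arg z ∈ Icc (-Real.pi) Real.pi :=
    ⟨(Complex.neg_pi_lt_arg z).le, Complex.arg_le_pi z⟩
  have hw : Complex.arg w ∈ Icc (-Real.pi) Real.pi :=
    ⟨(Complex.neg_pi_lt_arg w).le, Complex.arg_le_pi w⟩
  have h1 : ‖eI (φ (Complex.arg z)) - eI (φ (Complex.arg w))‖ ≤
      K * (Real.pi / 2) * ‖eI (Complex.arg z) - eI (Complex.arg w)‖ := by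
    rcases le_total (Complex.arg z) (Complex.arg w) with h | h
    · exact circ_le hK hφ hcut hz hw h
    · rw [norm_sub_rev (eI (φ (Complex.arg z))), norm_sub_rev (eI (Complex.arg z))]
      exact circ_le hK hφ hcut hw hz h
  have h2 := norm_mul_chord_le z w
  calc ‖z‖ * ‖eI (φ (Complex.arg z)) - eI (φ (Complex.arg w))‖
      ≤ ‖z‖ * (K * (Real.pi / 2) * ‖eI (Complex.arg z) - eI (Complex.arg w)‖) :=
        mul_le_mul_of_nonneg_left h1 (norm_nonneg _)
    _ = K * (Real.pi / 2) * (‖z‖ * ‖eI (Complex.arg z) - eI (Complex.arg w)‖) := by ring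
    _ ≤ K * (Real.pi / 2) * (2 * ‖z - w‖) := mul_le_mul_of_nonneg_left h2 (by positivity)
    _ = _ := by ring

/-- Radial amplitude times a function of the angle. -/
theorem amp_lip {u : ℂ → ℂ} {r : ℂ → ℝ} {K : ℝ} (hu : ∀ z, ‖u z‖ ≤ 1)
    (hK : ∀ z w, ‖z‖ * ‖u z - u w‖ ≤ K * ‖z - w‖) (hr : ∀ z w, |r z - r w| ≤ ‖z - w‖)
    (hr1 : ∀ z, |r z| ≤ ‖z‖) (z w : ℂ) :
    ‖((r z : ℝ) : ℂ) * u z - ((r w : ℝ) : ℂ) * u w‖ ≤ (K + 1) * ‖z - w‖ := by
  have e : ((r z : ℝ) : ℂ) * u z - ((r w : ℝ) : ℂ) * u w =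
      ((r z : ℝ) : ℂ) * (u z - u w) + ((r z - r w : ℝ) : ℂ) * u w := by
    push_cast; ring
  rw [e]
  refine (norm_add_le _ _).trans ?_
  rw [norm_mul, norm_mul, Complex.norm_real, Complex.norm_real, Real.norm_eq_abs,
    Real.norm_eq_abs]
  have h1 : |r z| * ‖u z - u w‖ ≤ K * ‖z - w‖ :=
    (mul_le_mul_of_nonneg_right (hr1 z) (norm_nonneg _)).trans (hK z w)
  have h2 : |r z - r w| * ‖u w‖ ≤ ‖z - w‖ * 1 :=
    mul_le_mul (hr z w) (hu w) (norm_nonneg _) (norm_nonneg _)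
  linarith

/-- Functions of the angle are continuous away from `0`. -/
theorem circ_continuousAt {u : ℂ → ℂ} {K : ℝ} (hK : ∀ z w, ‖z‖ * ‖u z - u w‖ ≤ K * ‖z - w‖)
    {z₀ : ℂ} (hz₀ : z₀ ≠ 0) : ContinuousAt u z₀ := by
  have hn : 0 < ‖z₀‖ := norm_pos_iff.mpr hz₀
  rw [ContinuousAt, tendsto_iff_norm_sub_tendsto_zero]
  have h1 : Tendsto (fun z : ℂ => K / ‖z₀‖ * ‖z₀ - z‖) (𝓝 z₀) (𝓝 0) := by
    have : Continuous fun z : ℂ => K / ‖z₀‖ * ‖z₀ - z‖ := by fun_prop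
    have h2 := this.tendsto z₀
    simpa using h2
  refine squeeze_zero (fun _ => norm_nonneg _) (fun z => ?_) h1
  have h2 := hK z₀ z
  rw [norm_sub_rev, div_mul_eq_mul_div, le_div_iff₀ hn]
  linarith

/-! ### The profiles -/

theorem clamp01_lip (x y : ℝ) : |clamp01 x - clamp01 y| ≤ |x - y| := by
  unfold clamp01
  refine (abs_max_sub_max_le_max _ _ _ _).trans (max_le (by simp) ?_)
  exact (abs_min_sub_min_le_max _ _ _ _).trans (max_le le_rfl (by simp))

theorem xc_sub (T : ℕ) (x y : ℝ) : xc T x - xc T y = (2 * T + 1) / (2 * Real.pi) * (x - y) := by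
  unfold xc
  have := Real.pi_ne_zero
  field_simp
  ring

theorem prof_lip (T : ℕ) (x y : ℝ) :
    |prof T x - prof T y| ≤ T * (2 * T + 1) * |x - y| := by
  have hpi := Real.pi_pos
  have e : prof T x - prof T y = 2 * Real.pi * ∑ k ∈ Finset.range T,
      (clamp01 (xc T x - (2 * k + 1)) - clamp01 (xc T y - (2 * k + 1))) := by
    unfold prof
    rw [Finset.sum_sub_distrib]
    ring
  rw [e, abs_mul, abs_of_pos (by positivity)]
  have h1 : |∑ k ∈ Finset.range T,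
      (clamp01 (xc T x - (2 * k + 1)) - clamp01 (xc T y - (2 * k + 1)))| ≤
        T * ((2 * T + 1) / (2 * Real.pi) * |x - y|) := by
    refine (Finset.abs_sum_le_sum_abs _ _).trans ?_
    have h2 : ∀ k ∈ Finset.range T,
        |clamp01 (xc T x - (2 * k + 1)) - clamp01 (xc T y - (2 * k + 1))| ≤
          (2 * T + 1) / (2 * Real.pi) * |x - y| := by
      intro k _
      refine (clamp01_lip _ _).trans ?_
      rw [sub_sub_sub_cancel_right, xc_sub, abs_mul, abs_of_nonneg (by positivity)]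
    refine (Finset.sum_le_card_nsmul _ _ _ h2).trans ?_
    rw [Finset.card_range, nsmul_eq_mul]
  calc 2 * Real.pi * |∑ k ∈ Finset.range T,
      (clamp01 (xc T x - (2 * k + 1)) - clamp01 (xc T y - (2 * k + 1)))|
      ≤ 2 * Real.pi * (T * ((2 * T + 1) / (2 * Real.pi) * |x - y|)) :=
        mul_le_mul_of_nonneg_left h1 (by positivity)
    _ = _ := by field_simp

theorem xc_neg_pi (T : ℕ) : xc T (-Real.pi) = 0 := by simp [xc]

theorem xc_pi (T : ℕ) : xc T Real.pi = 2 * T + 1 := by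
  unfold xc
  have := Real.pi_ne_zero
  field_simp
  ring

/-- The profile in the `k`-th rest. -/
theorem prof_of_rest {T k : ℕ} {θ : ℝ} (hk : k ≤ T) (h1 : 2 * (k : ℝ) ≤ xc T θ)
    (h2 : xc T θ ≤ 2 * k + 1) : prof T θ = (2 * k + 1) * Real.pi := by
  have hs : ∑ j ∈ Finset.range T, clamp01 (xc T θ - (2 * j + 1)) = k := by
    obtain ⟨n, rfl⟩ : ∃ n, T = k + n := ⟨T - k, by omega⟩
    rw [Finset.sum_range_add]
    have e1 : ∑ j ∈ Finset.range k, clamp01 (xc (k + n) θ - (2 * j + 1)) = k := by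
      rw [Finset.sum_congr rfl (g := fun _ => (1 : ℝ)) ?_]
      · simp
      · intro j hj
        have hj' : (j : ℝ) + 1 ≤ k := by exact_mod_cast Finset.mem_range.mp hj
        exact clamp01_eq_one (by linarith)
    have e2 : ∑ j ∈ Finset.range n, clamp01 (xc (k + n) θ - (2 * ((k + j : ℕ) : ℝ) + 1)) = 0 := by
      refine Finset.sum_eq_zero fun j _ => clamp01_of_le_zero ?_
      have : (0 : ℝ) ≤ j := by positivity
      push_cast
      linarith
    rw [e1, e2, add_zero]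
  rw [prof, hs]
  ring

theorem prof_neg_pi (T : ℕ) : prof T (-Real.pi) = Real.pi := by
  have h := prof_of_rest (T := T) (k := 0) (θ := -Real.pi) (by omega) (by rw [xc_neg_pi]; simp)
    (by rw [xc_neg_pi]; simp)
  rw [h]; simp

theorem prof_pi (T : ℕ) : prof T Real.pi = (2 * T + 1) * Real.pi :=
  prof_of_rest le_rfl (by rw [xc_pi]; linarith) (by rw [xc_pi])

theorem eI_pi : eI Real.pi = -1 := by
  have := eI_odd 0
  simpa using this

theorem eI_sub_two_pi (x : ℝ) : eI (x - 2 * Real.pi) = eI x := by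
  unfold eI
  exact exp_I_sub_two_pi x

theorem prof_cut (T : ℕ) : eI (prof T Real.pi) = eI (prof T (-Real.pi)) := by
  rw [prof_pi, prof_neg_pi, eI_odd, eI_pi]

theorem eI_Sph (T : ℕ) (y : ℂ) : eI (Sph T y) = eI (prof T (Complex.arg y)) := by
  unfold Sph
  exact eI_sub_two_pi _

/-- The Lipschitz constant of the profile. -/
noncomputable def pK (T : ℕ) : ℝ := T * (2 * T + 1)

theorem pK_nonneg (T : ℕ) : 0 ≤ pK T := by unfold pK; positivity

theorem Sph_circ (T : ℕ) (z w : ℂ) :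
    ‖z‖ * ‖eI (Sph T z) - eI (Sph T w)‖ ≤ pK T * Real.pi * ‖z - w‖ := by
  rw [eI_Sph, eI_Sph]
  exact circ_lip (φ := prof T) (pK_nonneg T) (fun x _ y _ => prof_lip T x y) (prof_cut T) z w

theorem Vph_circ (a : ℕ) (z w : ℂ) :
    ‖z‖ * ‖eI (Vph a z) - eI (Vph a w)‖ ≤ pK (a + 1) * Real.pi * ‖z - w‖ :=
  circ_lip (φ := prof (a + 1)) (pK_nonneg _) (fun x _ y _ => prof_lip (a + 1) x y)
    (prof_cut (a + 1)) z w

theorem Vmin_circ (a : ℕ) (z w : ℂ) :
    ‖z‖ * ‖eI (min (Vph a z) ((2 * a + 1) * Real.pi)) -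
      eI (min (Vph a w) ((2 * a + 1) * Real.pi))‖ ≤ pK (a + 1) * Real.pi * ‖z - w‖ := by
  have hpi := Real.pi_pos
  refine circ_lip (φ := fun θ => min (prof (a + 1) θ) ((2 * a + 1) * Real.pi)) (pK_nonneg _)
    (fun x _ y _ => ?_) ?_ z w
  · refine le_trans ?_ (prof_lip (a + 1) x y)
    exact (abs_min_sub_min_le_max _ _ _ _).trans (max_le le_rfl (by simp))
  · show eI (min (prof (a + 1) Real.pi) ((2 * a + 1) * Real.pi)) =
      eI (min (prof (a + 1) (-Real.pi)) ((2 * a + 1) * Real.pi))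
    have ha : (0 : ℝ) ≤ a := by positivity
    rw [prof_pi, prof_neg_pi, min_eq_right, min_eq_left, eI_odd, eI_pi]
    · nlinarith
    · push_cast
      nlinarith

theorem Sph_continuousAt (T : ℕ) {y₀ : ℂ} (hy₀ : y₀ ≠ 0) :
    ContinuousAt (fun y => eI (Sph T y)) y₀ := circ_continuousAt (Sph_circ T) hy₀

theorem Vph_continuousAt (a : ℕ) {z₀ : ℂ} (hz₀ : z₀ ≠ 0) :
    ContinuousAt (fun z => eI (Vph a z)) z₀ := circ_continuousAt (Vph_circ a) hz₀

theorem Vmin_continuousAt (a : ℕ) {z₀ : ℂ} (hz₀ : z₀ ≠ 0) :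
    ContinuousAt (fun z => eI (min (Vph a z) ((2 * a + 1) * Real.pi))) z₀ :=
  circ_continuousAt (Vmin_circ a) hz₀

/-! ### Rests and turns -/

theorem pos_nonneg (T : ℕ) (y : ℂ) : 0 ≤ pos T y := by
  unfold pos xc
  have h := Complex.neg_pi_lt_arg y
  have hpi := Real.pi_pos
  have : 0 ≤ Complex.arg y + Real.pi := by linarith
  positivity

theorem pos_le (T : ℕ) (y : ℂ) : pos T y ≤ 2 * T + 1 := by
  unfold pos
  rw [← xc_pi T]
  have h := Complex.arg_le_pi y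
  have h2 := xc_sub T Real.pi (Complex.arg y)
  have hpi := Real.pi_pos
  have : 0 ≤ (2 * (T : ℝ) + 1) / (2 * Real.pi) * (Real.pi - Complex.arg y) := by
    have : 0 ≤ Real.pi - Complex.arg y := by linarith
    positivity
  linarith

/-- Every point lies in a closed rest or in an open turn. -/
theorem pos_cases (T : ℕ) (y : ℂ) :
    (∃ k : ℕ, k ≤ T ∧ 2 * (k : ℝ) ≤ pos T y ∧ pos T y ≤ 2 * k + 1) ∨
      ∃ k : ℕ, k < T ∧ 2 * (k : ℝ) + 1 < pos T y ∧ pos T y < 2 * k + 2 := by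
  have h0 := pos_nonneg T y
  have hT := pos_le T y
  have h1 := Nat.floor_le h0
  have h2 := Nat.lt_floor_add_one (pos T y)
  rcases Nat.even_or_odd' ⌊pos T y⌋₊ with ⟨k, hk | hk⟩
  · left
    rw [hk] at h1 h2
    push_cast at h1 h2
    refine ⟨k, ?_, h1, h2.le⟩
    have h3 : (2 * k : ℝ) ≤ 2 * T + 1 := h1.trans hT
    have h4 : 2 * k ≤ 2 * T + 1 := by exact_mod_cast h3
    omega
  · rw [hk] at h1 h2
    push_cast at h1 h2
    rcases h1.eq_or_lt with h | h
    · left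
      refine ⟨k, ?_, by linarith, by linarith⟩
      have h3 : (2 * k + 1 : ℝ) ≤ 2 * T + 1 := h1.trans hT
      have h4 : 2 * k + 1 ≤ 2 * T + 1 := by exact_mod_cast h3
      omega
    · right
      refine ⟨k, ?_, h, by linarith⟩
      have h3 : (2 * k + 1 : ℝ) < 2 * T + 1 := h.trans_le hT
      have h4 : 2 * k + 1 < 2 * T + 1 := by exact_mod_cast h3
      omega

/-- In an open turn the position is continuous. -/
theorem pos_continuousAt {T k : ℕ} {y₀ : ℂ} (hy₀ : y₀ ≠ 0) (hk : k < T)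
    (h1 : 2 * (k : ℝ) + 1 < pos T y₀) (h2 : pos T y₀ < 2 * k + 2) : ContinuousAt (pos T) y₀ := by
  obtain ⟨-, hpi⟩ := arg_mem_of_pos hk h1 h2
  unfold pos xc
  refine ContinuousAt.div_const (ContinuousAt.mul_const
    (ContinuousAt.add_const (Complex.continuousAt_arg ?_) _) _) _
  rw [Complex.mem_slitPlane_iff_arg]
  exact ⟨hpi.ne, hy₀⟩

theorem eventually_turn {T k : ℕ} {y₀ : ℂ} (hy₀ : y₀ ≠ 0) (hk : k < T)
    (h1 : 2 * (k : ℝ) + 1 < pos T y₀) (h2 : pos T y₀ < 2 * k + 2) :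
    ∀ᶠ y in 𝓝 y₀, 2 * (k : ℝ) + 1 < pos T y ∧ pos T y < 2 * k + 2 := by
  have hc := pos_continuousAt hy₀ hk h1 h2
  exact (hc.eventually (lt_mem_nhds h1)).and (hc.eventually (gt_mem_nhds h2))

end Vale.Agent.P268.T.RV.C603
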