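import Vale.Agent.P268.T.H603.ZDir
import Vale.Agent.P268.T.H594.KinkProf

/-!
# P268, topological half, route V: the `z`-direction lemma for the frozen profiles
-/

set_option linter.unusedSectionVars false

namespace Vale.Agent.P268.T.RV

open Set Filter Topology

theorem Vph_eq (a : ℕ) (z : ℂ) : Vph a z = Sph (a + 1) z + 2 * Real.pi := by
  unfold Vph Sph
  ring

/-- In an open turn the phase `Vph a` is an angle lift. -/
theorem angLift_Vph {a k : ℕ} {z₀ : ℂ} (hz₀ : z₀ ≠ 0) (hk : k < a + 1)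
    (h1 : 2 * (k : ℝ) + 1 < pos (a + 1) z₀) (h2 : pos (a + 1) z₀ < 2 * k + 2) :
    AngLift (Vph a) (2 * (a + 1 : ℕ) + 1) z₀ := by
  have h := angLift_Sph hz₀ hk h1 h2
  unfold AngLift at h ⊢
  filter_upwards [h] with z hz
  rw [Vph_eq, Vph_eq, hz]
  ring

variable {P : Type*} [TopologicalSpace P] {s : Set P} {p₀ : P} {z₀ : ℂ}

/-- The amplitude `min (ρ p) (q p * r)` is locally constant below the wall. -/
theorem ampLoc_core {ρ q : P → ℝ} {n₀ : ℝ} (hρ : ContinuousWithinAt ρ s p₀)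
    (hq : ContinuousWithinAt q s p₀) (h : ρ p₀ < q p₀ * n₀) :
    AmpLoc s (fun p r => min (ρ p) (q p * r)) 0 p₀ n₀ := by
  set c : ℝ := (ρ p₀ + q p₀ * n₀) / 2 with hc
  have h1 : ∀ᶠ p in 𝓝[s] p₀, ρ p < c := hρ.eventually (gt_mem_nhds (by rw [hc]; linarith))
  have h2 : ContinuousWithinAt (fun p => q p * n₀ - |q p|) s p₀ :=
    (hq.mul continuousWithinAt_const).sub hq.abs
  set η : ℝ := (q p₀ * n₀ - ρ p₀) / (4 * (|q p₀| + 1)) with hη
  have hη0 : 0 < η := by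
    have : 0 < q p₀ * n₀ - ρ p₀ := by linarith
    positivity
  have h3 : ∀ᶠ p in 𝓝[s] p₀, |q p| < |q p₀| + 1 := hq.abs.eventually (gt_mem_nhds (by linarith))
  have h4 : ∀ᶠ p in 𝓝[s] p₀, q p₀ * n₀ - (q p₀ * n₀ - ρ p₀) / 4 < q p * n₀ :=
    (hq.mul (continuousWithinAt_const (b := n₀))).eventually (lt_mem_nhds (by
      show q p₀ * n₀ - (q p₀ * n₀ - ρ p₀) / 4 < q p₀ * n₀
      linarith))
  refine ⟨η, hη0, ?_⟩
  filter_upwards [h1, h3, h4] with p e1 e3 e4 r r' hr hr' hrr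
  have key : ∀ t, |t - n₀| < η → ρ p < q p * t := by
    intro t ht
    have e5 : |q p * (t - n₀)| ≤ (q p₀ * n₀ - ρ p₀) / 4 := by
      rw [abs_mul]
      calc |q p| * |t - n₀| ≤ (|q p₀| + 1) * η :=
            mul_le_mul e3.le ht.le (abs_nonneg _) (by positivity)
        _ = _ := by rw [hη]; field_simp
    have e6 := (abs_le.mp e5).1
    have e7 : q p * t = q p * n₀ + q p * (t - n₀) := by ring
    rw [e7]
    rw [hc] at e1
    linarith
  show 0 ≤ min (ρ p) (q p * r') - min (ρ p) (q p * r) ∧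
    min (ρ p) (q p * r') - min (ρ p) (q p * r) ≤ 0 * (r' - r)
  rw [min_eq_left (key r hr).le, min_eq_left (key r' hr').le]
  simp

theorem ampLoc_all {ρ q : P → ℝ} {n₀ Q : ℝ} (hq : ContinuousWithinAt q s p₀)
    (hq0 : ∀ᶠ p in 𝓝[s] p₀, 0 ≤ q p) (h : q p₀ < Q) :
    AmpLoc s (fun p r => min (ρ p) (q p * r)) Q p₀ n₀ := by
  refine ⟨1, one_pos, ?_⟩
  filter_upwards [hq0, hq.eventually (gt_mem_nhds h)] with p e1 e2 r r' _ _ hrr
  have e3 : q p * r ≤ q p * r' := mul_le_mul_of_nonneg_left hrr e1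
  have e4 : q p * r' - q p * r ≤ Q * (r' - r) := by
    have : q p * (r' - r) ≤ Q * (r' - r) := mul_le_mul_of_nonneg_right e2.le (by linarith)
    linarith
  have e5 : 0 ≤ Q * (r' - r) := by linarith
  show 0 ≤ min (ρ p) (q p * r') - min (ρ p) (q p * r) ∧
    min (ρ p) (q p * r') - min (ρ p) (q p * r) ≤ Q * (r' - r)
  constructor
  · have := min_le_min_left (ρ p) e3
    linarith
  · rcases le_total (ρ p) (q p * r) with h | h
    · rw [min_eq_left h, min_eq_left (h.trans e3)]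
      linarith
    · rw [min_eq_right h]
      linarith [min_le_right (ρ p) (q p * r')]

theorem amp_contWithin {ρ q : P → ℝ} {n₀ : ℝ} (hρ : ContinuousWithinAt ρ s p₀)
    (hq : ContinuousWithinAt q s p₀) :
    ContinuousWithinAt (fun x : P × ℝ => min (ρ x.1) (q x.1 * x.2)) (s ×ˢ univ) (p₀, n₀) := by
  have e1 : ContinuousWithinAt (fun x : P × ℝ => ρ x.1) (s ×ˢ univ) (p₀, n₀) :=
    ContinuousWithinAt.comp (t := s) (g := ρ) (f := Prod.fst) hρ continuousWithinAt_fst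
      (fun x hx => hx.1)
  have e2 : ContinuousWithinAt (fun x : P × ℝ => q x.1) (s ×ˢ univ) (p₀, n₀) :=
    ContinuousWithinAt.comp (t := s) (g := q) (f := Prod.fst) hq continuousWithinAt_fst
      (fun x hx => hx.1)
  exact e1.min (e2.mul continuousWithinAt_snd)

/-- **The `z`-direction lemma for the frozen profiles.** -/
theorem zdir_turn {a k : ℕ} {C W : P → ℂ} {ρ q : P → ℝ} (hz₀ : z₀ ≠ 0) (hk : k < a + 1)
    (h1 : 2 * (k : ℝ) + 1 < pos (a + 1) z₀) (h2 : pos (a + 1) z₀ < 2 * k + 2)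
    (hρ : ContinuousWithinAt ρ s p₀) (hq : ContinuousWithinAt q s p₀)
    (hq0 : ∀ᶠ p in 𝓝[s] p₀, 0 ≤ q p) (hq00 : 0 ≤ q p₀) (hW : ContinuousWithinAt W s p₀)
    (h : (ρ p₀ < q p₀ * ‖z₀‖ ∧ ρ p₀ < ‖z₀‖) ∨ (q p₀ < 1 ∧
      q p₀ * (1 - W p₀ * (starRingEnd ℂ) (eI (Vph a z₀))).re < 1)) :
    RegAt s (fun p z => C p + (((‖z‖ - min (ρ p) (q p * ‖z‖) : ℝ) : ℂ) * eI (Vph a z) +
      ((min (ρ p) (q p * ‖z‖) : ℝ) : ℂ) * W p)) p₀ z₀ := by
  have hn₀ : 0 < ‖z₀‖ := norm_pos_iff.mpr hz₀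
  have hal : (0 : ℝ) < 2 * (a + 1 : ℕ) + 1 := by positivity
  have hAL := angLift_Vph hz₀ hk h1 h2
  have main : ∃ Q : ℝ, 0 ≤ Q ∧ AmpLoc s (fun p r => min (ρ p) (q p * r)) Q p₀ ‖z₀‖ ∧
      min (ρ p₀) (q p₀ * ‖z₀‖) < ‖z₀‖ ∧
      Q * (1 - W p₀ * (starRingEnd ℂ) (Complex.exp (Complex.I * (Vph a z₀ : ℂ)))).re < 1 := by
    rcases h with ⟨h3, h4⟩ | ⟨h3, h4⟩
    · refine ⟨0, le_rfl, ampLoc_core hρ hq h3, ?_, by simp⟩
      exact (min_le_left _ _).trans_lt h4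
    · set κ : ℝ := (1 - W p₀ * (starRingEnd ℂ) (eI (Vph a z₀))).re with hκ
      have hc : ContinuousAt (fun Q : ℝ => Q * κ) (q p₀) := by fun_prop
      have h5 : ∀ᶠ Q in 𝓝 (q p₀), Q * κ < 1 := hc.eventually (gt_mem_nhds h4)
      obtain ⟨Q, hQ1, hQ2⟩ : ∃ Q, q p₀ < Q ∧ Q * κ < 1 := by
        obtain ⟨r, hr, hrb⟩ := Metric.eventually_nhds_iff_ball.mp h5
        refine ⟨q p₀ + r / 2, by linarith, hrb _ ?_⟩
        rw [Metric.mem_ball, Real.dist_eq, add_sub_cancel_left, abs_of_pos (by positivity)]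
        linarith
      refine ⟨Q, by linarith, ampLoc_all hq hq0 hQ1, ?_, hQ2⟩
      refine (min_le_right _ _).trans_lt ?_
      calc q p₀ * ‖z₀‖ < 1 * ‖z₀‖ := mul_lt_mul_of_pos_right h3 hn₀
        _ = ‖z₀‖ := one_mul _
  obtain ⟨Q, hQ0, hQm, hb, hQ1⟩ := main
  have key := RegAt.of_zdir (C := C) hz₀ hal hAL hQ0 hQm (amp_contWithin hρ hq) hW hb hQ1
  refine key.congr ⟨univ, univ_mem, Eventually.of_forall fun p z _ => ?_⟩
  simp only [zFn, eI]
  ring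

/-- The case without window part. -/
theorem zdir_plain {a k : ℕ} {C : P → ℂ} (hz₀ : z₀ ≠ 0) (hk : k < a + 1)
    (h1 : 2 * (k : ℝ) + 1 < pos (a + 1) z₀) (h2 : pos (a + 1) z₀ < 2 * k + 2) :
    RegAt s (fun p z => C p + ((‖z‖ : ℝ) : ℂ) * eI (Vph a z)) p₀ z₀ := by
  have key := zdir_turn (s := s) (p₀ := p₀) (C := C) (W := fun _ => 0) (ρ := fun _ => 0)
    (q := fun _ => 0) hz₀ hk h1 h2 continuousWithinAt_const continuousWithinAt_const
    (Eventually.of_forall fun _ => le_rfl) le_rfl continuousWithinAt_const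
    (Or.inr ⟨one_pos, by simp⟩)
  refine key.congr ⟨univ, univ_mem, Eventually.of_forall fun p z _ => ?_⟩
  simp

end Vale.Agent.P268.T.RV
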