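import Vale.Agent.P268.T.H603.CircLip
import Vale.Agent.P268.T.H603.ZProf
import Vale.Agent.P268.T.H266.Lev
import Vale.Agent.P268.T.H830.Level

/-!
# P268, topological half, route V: the circle gate `Gam a` is planar
-/

set_option linter.unusedSectionVars false

namespace Vale.Agent.P268.T.RV

open Set Filter Topology

namespace C603

theorem eI_rest {T k : ℕ} {θ : ℝ} (hk : k ≤ T) (h1 : 2 * (k : ℝ) ≤ xc T θ)
    (h2 : xc T θ ≤ 2 * k + 1) : eI (prof T θ) = -1 := by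
  rw [prof_of_rest hk h1 h2, eI_odd]

/-- In the rests of `z` the gate is `-|z|`. -/
theorem Gam_rest {a k : ℕ} {z : ℂ} (hk : k ≤ a + 1) (h1 : 2 * (k : ℝ) ≤ pos (a + 1) z)
    (h2 : pos (a + 1) z ≤ 2 * k + 1) (q : ℝ) : Gam a q z = -((‖z‖ : ℝ) : ℂ) := by
  have e1 : Vph a z = (2 * k + 1) * Real.pi := prof_of_rest hk h1 h2
  have e2 : eI (Vph a z) = -1 := by rw [e1, eI_odd]
  have hpi := Real.pi_pos
  have e3 : eI (min (Vph a z) ((2 * a + 1) * Real.pi)) = -1 := by
    rcases le_total (Vph a z) ((2 * a + 1) * Real.pi) with h | h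
    · rw [min_eq_left h, e2]
    · rw [min_eq_right h, eI_odd]
  rw [Gam, e2, e3]
  push_cast
  ring

/-- Up to the rest `a` the gate does not close. -/
theorem Gam_left {a : ℕ} {z : ℂ} (h : Vph a z ≤ (2 * a + 1) * Real.pi) (q : ℝ) :
    Gam a q z = ((‖z‖ : ℝ) : ℂ) * eI (Vph a z) := by
  rw [Gam, min_eq_left h]
  push_cast
  ring

/-- The gate in the last turn. -/
theorem Gam_right {a : ℕ} {z : ℂ} (h : (2 * a + 1) * Real.pi ≤ Vph a z) (q : ℝ) :
    Gam a q z = ((‖z‖ - min q ‖z‖ : ℝ) : ℂ) * eI (Vph a z) - ((min q ‖z‖ : ℝ) : ℂ) := by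
  rw [Gam, min_eq_right h, eI_odd]
  ring

theorem Vph_turn {a k : ℕ} {z : ℂ} (hk : k < a + 1) (h1 : 2 * (k : ℝ) + 1 < pos (a + 1) z)
    (h2 : pos (a + 1) z < 2 * k + 2) :
    (2 * k + 1) * Real.pi ≤ Vph a z ∧ Vph a z ≤ (2 * k + 3) * Real.pi := by
  have h3 : xc (a + 1) (Complex.arg z) < 2 * k + 2 := h2
  have h4 : 2 * (k : ℝ) + 1 < xc (a + 1) (Complex.arg z) := h1
  have e : Vph a z = _ := prof_eq_turn hk h4.le h3.le
  have hpi := Real.pi_pos
  rw [e]
  constructor <;> nlinarith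

theorem Gam_turn {a k : ℕ} {z : ℂ} (hk : k < a) (h1 : 2 * (k : ℝ) + 1 < pos (a + 1) z)
    (h2 : pos (a + 1) z < 2 * k + 2) (q : ℝ) :
    Gam a q z = ((‖z‖ : ℝ) : ℂ) * eI (Vph a z) := by
  have hpi := Real.pi_pos
  refine Gam_left ((Vph_turn (by omega) h1 h2).2.trans ?_) q
  have hk' : (k : ℝ) + 1 ≤ a := by exact_mod_cast hk
  nlinarith

end C603

/-- The Lipschitz constant of the gate. -/
noncomputable def gK (a : ℕ) : ℝ := 2 * (C603.pK (a + 1) * Real.pi + 1)

namespace C603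

theorem gK_nonneg (a : ℕ) : 0 ≤ gK a := by
  have := pK_nonneg (a + 1)
  have := Real.pi_pos
  unfold gK
  positivity

theorem Gam_lip (a : ℕ) {q : ℝ} (hq : 0 ≤ q) (z w : ℂ) :
    ‖Gam a q z - Gam a q w‖ ≤ gK a * ‖z - w‖ := by
  have hr1 : ∀ z w : ℂ, |(‖z‖ - min q ‖z‖) - (‖w‖ - min q ‖w‖)| ≤ ‖z - w‖ := by
    intro z w
    have e : ∀ x : ℝ, x - min q x = max (x - q) 0 := by
      intro x
      rcases le_total q x with h | h
      · rw [min_eq_left h, max_eq_left (by linarith)]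
      · rw [min_eq_right h, max_eq_right (by linarith), sub_self]
    rw [e, e]
    refine (abs_max_sub_max_le_max _ _ _ _).trans (max_le ?_ (by simp))
    rw [sub_sub_sub_cancel_right]
    exact abs_norm_sub_norm_le z w
  have hr2 : ∀ z : ℂ, |‖z‖ - min q ‖z‖| ≤ ‖z‖ := by
    intro z
    have h1 := min_le_right q ‖z‖
    have h2 : 0 ≤ min q ‖z‖ := le_min hq (norm_nonneg _)
    rw [abs_of_nonneg (by linarith)]
    linarith
  have hs1 : ∀ z w : ℂ, |min q ‖z‖ - min q ‖w‖| ≤ ‖z - w‖ := by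
    intro z w
    exact (abs_min_sub_min_le_max _ _ _ _).trans
      (max_le (by simp) (abs_norm_sub_norm_le z w))
  have hs2 : ∀ z : ℂ, |min q ‖z‖| ≤ ‖z‖ := by
    intro z
    rw [abs_of_nonneg (le_min hq (norm_nonneg _))]
    exact min_le_right _ _
  have h1 := amp_lip (u := fun z => eI (Vph a z)) (r := fun z => ‖z‖ - min q ‖z‖)
    (fun z => (norm_eI _).le) (Vph_circ a) hr1 hr2 z w
  have h2 := amp_lip (u := fun z => eI (min (Vph a z) ((2 * a + 1) * Real.pi)))
    (r := fun z => min q ‖z‖) (fun z => (norm_eI _).le) (Vmin_circ a) hs1 hs2 z w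
  have e : Gam a q z - Gam a q w =
      (((‖z‖ - min q ‖z‖ : ℝ) : ℂ) * eI (Vph a z) - ((‖w‖ - min q ‖w‖ : ℝ) : ℂ) * eI (Vph a w)) +
      (((min q ‖z‖ : ℝ) : ℂ) * eI (min (Vph a z) ((2 * a + 1) * Real.pi)) -
        ((min q ‖w‖ : ℝ) : ℂ) * eI (min (Vph a w) ((2 * a + 1) * Real.pi))) := by
    unfold Gam
    ring
  rw [e]
  refine (norm_add_le _ _).trans ((add_le_add h1 h2).trans (le_of_eq ?_))
  rw [gK]
  ring

theorem Gam_zero (a : ℕ) {q : ℝ} (hq : 0 ≤ q) : Gam a q 0 = 0 := by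
  unfold Gam
  rw [norm_zero, min_eq_right hq]
  simp

theorem Gam_lip_q (a : ℕ) (q q' : ℝ) (z : ℂ) : ‖Gam a q z - Gam a q' z‖ ≤ 2 * |q - q'| := by
  have e : Gam a q z - Gam a q' z = ((min q ‖z‖ - min q' ‖z‖ : ℝ) : ℂ) *
      (eI (min (Vph a z) ((2 * a + 1) * Real.pi)) - eI (Vph a z)) := by
    unfold Gam
    push_cast
    ring
  rw [e, norm_mul, Complex.norm_real, Real.norm_eq_abs]
  have h1 : |min q ‖z‖ - min q' ‖z‖| ≤ |q - q'| :=
    (abs_min_sub_min_le_max _ _ _ _).trans (max_le le_rfl (by simp))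
  have h2 : ‖eI (min (Vph a z) ((2 * a + 1) * Real.pi)) - eI (Vph a z)‖ ≤ 2 := by
    refine (norm_sub_le _ _).trans ?_
    rw [norm_eI, norm_eI]
    norm_num
  calc _ ≤ |q - q'| * 2 := mul_le_mul h1 h2 (norm_nonneg _) (abs_nonneg _)
    _ = _ := mul_comm _ _

/-- Joint continuity of the gate. -/
theorem Gam_cont (a : ℕ) : ContinuousOn (fun p : ℝ × ℂ => Gam a p.1 p.2) (Ici 0 ×ˢ univ) := by
  intro p₀ hp₀
  have hq₀ : 0 ≤ p₀.1 := hp₀.1
  rw [ContinuousWithinAt, tendsto_iff_norm_sub_tendsto_zero]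
  have h1 : Tendsto (fun p : ℝ × ℂ => gK a * ‖p.2 - p₀.2‖ + 2 * |p.1 - p₀.1|)
      (𝓝[Ici 0 ×ˢ univ] p₀) (𝓝 0) := by
    have h2 : Continuous fun p : ℝ × ℂ => gK a * ‖p.2 - p₀.2‖ + 2 * |p.1 - p₀.1| := by fun_prop
    have h3 := h2.tendsto p₀
    simp only [sub_self, norm_zero, abs_zero, mul_zero, add_zero] at h3
    exact h3.mono_left nhdsWithin_le_nhds
  refine squeeze_zero' (Eventually.of_forall fun _ => norm_nonneg _) ?_ h1
  filter_upwards [self_mem_nhdsWithin] with p hp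
  have hp1 : 0 ≤ p.1 := hp.1
  have e : Gam a p.1 p.2 - Gam a p₀.1 p₀.2 = (Gam a p.1 p.2 - Gam a p.1 p₀.2) +
      (Gam a p.1 p₀.2 - Gam a p₀.1 p₀.2) := by ring
  rw [e]
  exact (norm_add_le _ _).trans (add_le_add (Gam_lip a hp1 _ _) (Gam_lip_q a _ _ _))

theorem Gam_hom (a : ℕ) {r : ℝ} (hr : 0 ≤ r) {q : ℝ} (_hq : 0 ≤ q) (z : ℂ) :
    Gam a (r * q) (r • z) = r • Gam a q z := by
  rcases hr.eq_or_lt with rfl | hr
  · rw [zero_mul, zero_smul, zero_smul, Gam_zero a le_rfl]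
  · have h1 : Complex.arg (r • z) = Complex.arg z := by
      rw [Complex.real_smul]
      exact Complex.arg_real_mul z hr
    have h2 : Vph a (r • z) = Vph a z := by unfold Vph; rw [h1]
    have h3 : ‖r • z‖ = r * ‖z‖ := by rw [norm_smul, Real.norm_of_nonneg hr.le]
    unfold Gam
    rw [h2, h3, ← mul_min_of_nonneg _ _ hr.le, Complex.real_smul]
    push_cast
    ring

/-- The sign at the rests: the gate is negative there, for every `q`. -/
theorem Gam_rest_neg {a k : ℕ} {z : ℂ} (hz : z ≠ 0) (hk : k ≤ a + 1)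
    (h1 : 2 * (k : ℝ) ≤ pos (a + 1) z) (h2 : pos (a + 1) z ≤ 2 * k + 1) (q : ℝ) :
    (Gam a q z).re < 0 := by
  rw [Gam_rest hk h1 h2]
  have := norm_pos_iff.mpr hz
  simpa using this

end C603

open C603 in
/-- **The circle gate is planar.** -/
theorem planar_Gam (a : ℕ) : Planar (univ : Set Unit) 1 (gK a) (fun _ => Gam a) where
  cpos := one_pos
  cont := by
    refine (Gam_cont a).comp (f := fun p : Unit × (ℝ × ℂ) => p.2) continuousOn_snd ?_
    exact fun p hp => hp.2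
  hom := fun _ _ r hr d hd z => Gam_hom a hr hd z
  zero := fun _ _ d hd => Gam_zero a hd
  lip := fun _ _ d hd z w => Gam_lip a hd z w
  sat := fun _ _ d z hd => by
    rw [one_mul] at hd ⊢
    unfold Gam
    rw [min_eq_right hd, min_self]
  reg := by
    rintro ⟨⟩ - d hd z hz h0
    rcases pos_cases (a + 1) z with ⟨k, hk, h1, h2⟩ | ⟨k, hk, h1, h2⟩
    · exact absurd h0 (not_le.mpr (Gam_rest_neg hz hk h1 h2 d))
    · have hev := eventually_turn hz hk h1 h2
      rcases (Nat.lt_succ_iff.mp hk).lt_or_eq with hka | hka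
      · have key := zdir_plain (s := (univ : Set Unit) ×ˢ Ici (0 : ℝ)) (p₀ := ((), d))
          (C := fun _ => 0) hz hk h1 h2
        obtain ⟨U, hU, hUz⟩ := eventually_iff_exists_mem.mp hev
        refine key.congr ⟨U, hU, Eventually.of_forall fun p z' hz' => ?_⟩
        show 0 + ((‖z'‖ : ℝ) : ℂ) * eI (Vph a z') = Gam a p.2 z'
        rw [Gam_turn hka (hUz z' hz').1 (hUz z' hz').2, zero_add]
      · subst hka
        have hdz : d < ‖z‖ := by
          by_contra hcon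
          rw [not_lt] at hcon
          have e1 : Gam k d z = -((‖z‖ : ℝ) : ℂ) := by
            rw [Gam_right (Vph_turn hk h1 h2).1, min_eq_right hcon]
            simp
          rw [e1] at h0
          have := norm_pos_iff.mpr hz
          simp only [Complex.neg_re, Complex.ofReal_re] at h0
          linarith
        have key := zdir_turn (s := (univ : Set Unit) ×ˢ Ici (0 : ℝ)) (p₀ := ((), d))
          (C := fun _ => 0) (W := fun _ => -1) (ρ := fun p => p.2) (q := fun _ => 1) hz hk h1 h2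
          continuousWithinAt_snd continuousWithinAt_const
          (Eventually.of_forall fun _ => zero_le_one) zero_le_one continuousWithinAt_const
          (Or.inl ⟨by simpa using hdz, hdz⟩)
        obtain ⟨U, hU, hUz⟩ := eventually_iff_exists_mem.mp hev
        refine key.congr ⟨U, hU, Eventually.of_forall fun p z' hz' => ?_⟩
        show 0 + (((‖z'‖ - min p.2 (1 * ‖z'‖) : ℝ) : ℂ) * eI (Vph k z') +
          ((min p.2 (1 * ‖z'‖) : ℝ) : ℂ) * (-1)) = Gam k p.2 z'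
        rw [Gam_right (Vph_turn hk (hUz z' hz').1 (hUz z' hz').2).1, one_mul]
        ring

end Vale.Agent.P268.T.RV
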